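import Vale.Agent.P024.IQ.Spec
import Vale.Agent.P024.H244.M3T.Transport

/-!
The bound for the degree when some primes above `p` split completely.
-/

namespace Vale.Agent.P024.IQ

open scoped NumberField
open IsDedekindDomain NumberField Vale.Agent.P024 Vale.Agent.P024.M3 Vale.Agent.P024.M3T

theorem VS_le_VX (L : Type*) [Field L] [NumberField L] (p k : ℕ)
    (S : Set (HeightOneSpectrum (𝓞 L))) : VS L p k ≤ VX L p k S :=
  fun _ hx w hw => ⟨(hx w hw).1, fun _ => (hx w hw).2⟩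

/-- The bound for the degree, from the blocks. -/
theorem bound_of.{u} (h90 : PropH90.{u}) (hU : PropUT.{u}) (hA : PropAT.{u}) (hD : PropD.{u})
    (hTR : PropTR.{u}) (hTRT : PropTRT.{u}) (hN : PropN.{u}) (F : Type u) [Field F] [NumberField F]
    (p : ℕ) (hp : p.Prime) (T : Set (HeightOneSpectrum (𝓞 F))) (hTf : T.Finite)
    (hT : ∀ v ∈ T, (p : 𝓞 F) ∉ v.asIdeal) (S : Set (HeightOneSpectrum (𝓞 F)))
    (hS : ∀ v ∈ S, (p : 𝓞 F) ∈ v.asIdeal) (hE : ClosTS F p T S) :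
    ∃ C : ℕ, ∀ (L : Type u) [Field L] [NumberField L] [Algebra F L]
      [IsGalois F L] (σ : L ≃ₐ[F] L), (∀ τ, τ ∈ Subgroup.zpowers σ) →
      Odd (Module.finrank F L) →
      (∀ w : HeightOneSpectrum (𝓞 L), (p : 𝓞 L) ∉ w.asIdeal → Unr F w) →
      (∀ v ∈ T, Split L v) → (∀ v ∈ S, Split L v) → Module.finrank F L ≤ C := by
  obtain ⟨C, hC⟩ := hE
  refine ⟨classNumber F * C, ?_⟩
  intro L _ _ _ _ σ hσ hodd hunr hsplit hsplitS
  obtain ⟨hU0, hU1⟩ := hU F L σ hσ hodd T hTf hsplit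
  obtain ⟨hE0, k, hT0, hET⟩ := hD F L σ hσ p hp
  have hA1 := hA F L σ hσ p hp hunr T hTf hT hE0
  obtain ⟨-, hTR1, hTR2, -⟩ := hTR F L σ hσ
  have hTR3 := hTRT F L σ hσ T
  obtain ⟨hC0, hC1⟩ := hC k
  rw [← h90 F L σ hσ (UUT L T), hU1] at hA1
  set ι : Fˣ →* Lˣ := Units.map (algebraMap F L : F →* L) with hι
  have hinj : Function.Injective ι := Units.map_injective (algebraMap F L).injective
  set d := dd σ with hd
  set n := nn F L with hn
  set A := RR L p ⊓ d.ker with hAdef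
  set V := VS L p k ⊓ d.ker with hVdef
  set X := UUT L T ⊓ d.ker with hXdef
  set Bn := (RR L p).map n ⊔ V with hBdef
  have hVA : V ≤ A := fun x hx => ⟨fun w hw => (hx.1 w hw).1, hx.2⟩
  have hXA : X ≤ A := fun x hx => ⟨UUT_le_RR T hT hx.1, hx.2⟩
  set D := (Bn ⊓ A) ⊔ X with hDdef
  have hDA : D ≤ A := sup_le inf_le_right hXA
  have hVX : (VX F p k S).map ι ≤ Bn ⊓ A := by
    rintro _ ⟨x, hx, rfl⟩
    have hxA : ι x ∈ A := by
      rw [hAdef, hTR1 p hp]
      exact ⟨x, fun w hw => (hx w hw).1, rfl⟩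
    refine ⟨?_, hxA⟩
    obtain ⟨y, hy, z, hz, hyz⟩ := hN F L p hp S hS hsplitS k x hx
    rw [show ι x = n y * ι z from hyz]
    refine Subgroup.mul_mem_sup ⟨y, hy, rfl⟩ ?_
    rw [hVdef, hTR2 p k hp]
    exact ⟨z, hz, rfl⟩
  have h1 : D.relIndex A ≤ C ∧ D.relIndex A ≠ 0 := by
    have h2 : (UFT T ⊔ VX F p k S).map ι ≤ D := by
      rw [Subgroup.map_sup, ← hTR3]
      exact sup_le le_sup_right (hVX.trans le_sup_left)
    have h3 : ((UFT T ⊔ VX F p k S).map ι).relIndex A =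
        (UFT T ⊔ VX F p k S).relIndex (RR F p) := by
      rw [hAdef, hTR1 p hp, Subgroup.relIndex_map_map_of_injective _ _ hinj]
    have h4 : ((UFT T ⊔ VX F p k S).map ι).relIndex A ≠ 0 := by rw [h3]; exact hC0
    exact ⟨le_trans (Subgroup.relIndex_le_of_le_left h2 h4) (by rw [h3]; exact hC1),
      fun h => h4 (Subgroup.relIndex_eq_zero_of_le_left h2 h)⟩
  have hT' : Bn.relIndex A = (Bn ⊓ A).relIndex D * D.relIndex A := by
    rw [Subgroup.relIndex_mul_relIndex _ _ _ le_sup_left hDA, Subgroup.inf_relIndex_right]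
  have h4 : (Bn ⊓ A).relIndex D ≤ h0 d n (UUT L T) := by
    have h5 : (Bn ⊓ A).relIndex D = (Bn ⊓ A).relIndex X := by
      rw [hDdef, Subgroup.relIndex_sup_left]
    have h6 : (Bn ⊓ A).relIndex X = Bn.relIndex X := by
      rw [← Subgroup.inf_relIndex_right (Bn ⊓ A) X, inf_assoc, inf_eq_right.2 hXA,
        Subgroup.inf_relIndex_right]
    rw [h5, h6]
    refine Subgroup.relIndex_le_of_le_left ?_ hU0
    exact le_trans (Subgroup.map_mono (UUT_le_RR T hT)) le_sup_left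
  have h7 : Module.finrank F L * h0 d n (UUT L T) ≤ classNumber F * C * h0 d n (UUT L T) :=
    calc Module.finrank F L * h0 d n (UUT L T) ≤ classNumber F * e1 d (RR L p) := hA1
      _ ≤ classNumber F * ((Bn ⊓ A).relIndex D * D.relIndex A) := by
          rw [← hT']; exact Nat.mul_le_mul_left _ hET
      _ ≤ classNumber F * (h0 d n (UUT L T) * C) :=
          Nat.mul_le_mul_left _ (Nat.mul_le_mul h4 h1.1)
      _ = classNumber F * C * h0 d n (UUT L T) := by ring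
  exact Nat.le_of_mul_le_mul_right h7 (Nat.pos_of_ne_zero hU0)

/-- The Galois side: the cyclic layers of a character of infinite order; the killed primes may lie
above `p`. -/
theorem layers.{u} (F : Type u) [Field F] [NumberField F] (p : ℕ) [hp : Fact p.Prime] (hp2 : p ≠ 2)
    (ψ : (AlgebraicClosure F ≃ₐ[F] AlgebraicClosure F) →* ℤ_[p]ˣ) (hψ : Continuous ψ)
    (hinf : ¬ ∃ m : ℕ, 0 < m ∧ ∀ g, ψ g ^ m = 1) (B : ℕ) :
    ∃ (L : Type u) (_ : Field L) (_ : NumberField L) (_ : Algebra F L)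
    (_ : IsGalois F L) (σ : L ≃ₐ[F] L), (∀ τ, τ ∈ Subgroup.zpowers σ) ∧
    Odd (Module.finrank F L) ∧
    (∀ w : HeightOneSpectrum (𝓞 L), (p : 𝓞 L) ∉ w.asIdeal → Unr F w) ∧
    (∀ v : HeightOneSpectrum (𝓞 F), TR.Kills ψ v → Split L v) ∧ B < Module.finrank F L := by
  have hchar : CharZero (AlgebraicClosure F) :=
    charZero_of_injective_algebraMap (algebraMap F (AlgebraicClosure F)).injective
  have halg : Algebra.IsAlgebraic ℚ (AlgebraicClosure F) := Algebra.IsAlgebraic.trans ℚ F _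
  obtain ⟨n, hn⟩ := M3G.exists_large hinf B
  obtain ⟨L, hfd, hgal, ⟨m, hm⟩, ⟨σ, hσ⟩, hcard, hL⟩ := M3G.layer hp2 hψ n
  have hNF : NumberField L := NumberField.of_module_finite F L
  have hL1 : ∀ s : AlgebraicClosure F ≃ₐ[F] AlgebraicClosure F, ψ s ^ (p - 1) = 1 →
      ∀ x : L, s x = x := by
    intro s hs
    rw [hL, M3G.layChar_apply, hs, map_one]
  refine ⟨L, inferInstance, hNF, inferInstance, hgal, σ, hσ, ?_, ?_, ?_, ?_⟩
  · rw [hm]
    exact (hp.out.odd_of_ne_two hp2).pow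
  · intro w hpw
    have hne : w.asIdeal.under (𝓞 F) ≠ ⊥ := Ideal.under_ne_bot _ w.ne_bot
    let v' : HeightOneSpectrum (𝓞 F) := ⟨w.asIdeal.under (𝓞 F), inferInstance, hne⟩
    have hlies : w.asIdeal.LiesOver v'.asIdeal := ⟨rfl⟩
    obtain ⟨x, hx⟩ := v'.valuation_exists_uniformizer F
    refine ⟨x, ?_⟩
    rw [H114.Lay.unramified hp2 ψ hψ L hL1 v' w hpw x, hx]
  · intro v hv w hw τ hτ
    have hlies : w.asIdeal.LiesOver v.asIdeal := ⟨hw.symm⟩
    refine H114.Lay.split ψ L (fun s hs => hL1 s (by rw [hs, one_pow])) v hv w τ ?_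
    intro x
    rw [← w.valuation_lt_one_iff_mem (K := L), ← w.valuation_lt_one_iff_mem (K := L)]
    have h1 : ((τ • x : 𝓞 L) : L) = τ (x : L) := rfl
    rw [← hτ]
    exact Iff.rfl
  · rw [hcard]
    exact hn

/-- A character which kills the primes of `T` (outside `p`) and of `S` (above `p`) has finite
order if the `T`-units have bounded index at the primes above `p` outside `S`. -/
theorem finite_of_closTS.{u} (hN : PropN.{u}) (F : Type u) [Field F] [NumberField F] (p : ℕ)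
    [hp : Fact p.Prime] (hp2 : p ≠ 2)
    (ψ : (AlgebraicClosure F ≃ₐ[F] AlgebraicClosure F) →* ℤ_[p]ˣ) (hψ : Continuous ψ)
    (T : Set (HeightOneSpectrum (𝓞 F))) (hTf : T.Finite)
    (hT : ∀ v ∈ T, (p : 𝓞 F) ∉ v.asIdeal) (hkill : ∀ v ∈ T, TR.Kills ψ v)
    (S : Set (HeightOneSpectrum (𝓞 F))) (hS : ∀ v ∈ S, (p : 𝓞 F) ∈ v.asIdeal)
    (hkillS : ∀ v ∈ S, TR.Kills ψ v) (hE : ClosTS F p T S) :
    ∃ m : ℕ, 0 < m ∧ ∀ g, ψ g ^ m = 1 := by
  by_contra hcon
  obtain ⟨C, hC⟩ := bound_of H157.propH90 H244.M3T.propUT H244.M3T.propAT H409.propD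
    H422.TR.propTR H244.M3T.propTRT hN F p hp.out T hTf hT S hS hE
  obtain ⟨L, _, _, _, _, σ, hσ, hodd, hunr, hs, hlt⟩ := layers F p hp2 ψ hψ hcon C
  exact absurd (hC L σ hσ hodd hunr (fun v hv => hs v (hkill v hv))
    (fun v hv => hs v (hkillS v hv))) (not_le.2 hlt)

/-- The same inside any algebraic closure. -/
theorem finite_of_closTS'.{u, v} (hN : PropN.{u}) (D : Type u) [Field D] [NumberField D]
    (Ω : Type v) [Field Ω]
    [Algebra D Ω] [IsAlgClosure D Ω] (p : ℕ) [hp : Fact p.Prime] (hp2 : p ≠ 2)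
    (ψ : (Ω ≃ₐ[D] Ω) →* ℤ_[p]ˣ) (hψ : Continuous ψ)
    (T : Set (HeightOneSpectrum (𝓞 D))) (hTf : T.Finite)
    (hT : ∀ v ∈ T, (p : 𝓞 D) ∉ v.asIdeal) (hkill : ∀ v ∈ T, TR.Kills ψ v)
    (S : Set (HeightOneSpectrum (𝓞 D))) (hS : ∀ v ∈ S, (p : 𝓞 D) ∈ v.asIdeal)
    (hkillS : ∀ v ∈ S, TR.Kills ψ v) (hE : ClosTS D p T S) :
    ∃ m : ℕ, 0 < m ∧ ∀ g, ψ g ^ m = 1 := by
  let e : AlgebraicClosure D ≃ₐ[D] Ω := IsAlgClosure.equiv D (AlgebraicClosure D) Ω
  let c : (AlgebraicClosure D ≃ₐ[D] AlgebraicClosure D) →* (Ω ≃ₐ[D] Ω) :=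
    (AlgEquiv.autCongr e : (AlgebraicClosure D ≃ₐ[D] AlgebraicClosure D) →* (Ω ≃ₐ[D] Ω))
  have hc : Continuous c := H244.M3T.continuous_autCongr e
  have hcapp : ∀ g x, c g x = e (g (e.symm x)) := fun g x => rfl
  have key : ∀ v : HeightOneSpectrum (𝓞 D), TR.Kills ψ v → TR.Kills (ψ.comp c) v := by
    intro v hv2 O hO s hs
    have hmem : ∀ x : Ω, x ∈ O.comap (e.symm : Ω →+* AlgebraicClosure D) ↔ e.symm x ∈ O :=
      fun x => Iff.rfl
    have hnon : ∀ x : Ω, x ∈ (O.comap (e.symm : Ω →+* AlgebraicClosure D)).nonunits ↔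
        e.symm x ∈ O.nonunits := by
      intro x
      rw [ValuationSubring.mem_nonunits_iff_or, ValuationSubring.mem_nonunits_iff_or, hmem,
        map_inv₀, map_eq_zero_iff e.symm e.symm.injective]
    refine hv2 (O.comap (e.symm : Ω →+* AlgebraicClosure D)) ?_ (c s) ?_
    · intro x
      rw [hO x, hnon]
      have h1 : e.symm (algebraMap D Ω (x : D)) = algebraMap D (AlgebraicClosure D) (x : D) :=
        e.symm.commutes _
      rw [h1]
    · intro x
      rw [hmem, hmem, hcapp, AlgEquiv.symm_apply_apply]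
      exact hs _
  obtain ⟨m, hm, hψm⟩ := finite_of_closTS hN D p hp2 (ψ.comp c) (hψ.comp hc) T hTf hT
    (fun v hv => key v (hkill v hv)) S hS (fun v hv => key v (hkillS v hv)) hE
  refine ⟨m, hm, fun g => ?_⟩
  obtain ⟨s, rfl⟩ := (AlgEquiv.autCongr e).surjective g
  exact hψm s

end Vale.Agent.P024.IQ
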